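import Mathlib
import Vale.Agent.Lib.P248.helper1.ConeAux

/-!
# P248 pool job CQD2 (helper69): `mem_interior_coneE`

For `ζ` in the interior of the base `D` and `0 < τ < 1`, the point
`(τ h, (1 - τ) ζ + τ c)` is an interior point of the cone over `D` with apex `(h, c)`.
-/

namespace Vale.Agent.Lib.P248.H69

open MeasureTheory Set
open scoped ENNReal
open Vale.Agent.Lib.P227 Vale.Agent.Lib.P248.H1

/-- Pool job P248-CQD2. -/
theorem mem_interior_coneE {n : ℕ} (D : Set (EuclideanSpace ℝ (Fin n)))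
    (c ζ : EuclideanSpace ℝ (Fin n)) (hζ : ζ ∈ interior D) (h τ : ℝ) (hh : 0 < h)
    (hτ0 : 0 < τ) (hτ1 : τ < 1) :
    ecomb (τ * h) ((1 - τ) • ζ + τ • c) ∈ interior (coneE D c h) := by
  have hh0 : h ≠ 0 := ne_of_gt hh
  have hc0 : Continuous (fun x : EuclideanSpace ℝ (Fin (n + 1)) => x 0) :=
    (continuous_apply 0).comp (PiLp.continuous_ofLp 2 _)
  obtain ⟨z, hz⟩ : ∃ z : EuclideanSpace ℝ (Fin (n + 1)),
      z = ecomb (τ * h) ((1 - τ) • ζ + τ • c) := ⟨_, rfl⟩
  rw [← hz]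
  have hz0 : z 0 = τ * h := by rw [hz, ecomb_zero]
  have hzt : etail z = (1 - τ) • ζ + τ • c := by rw [hz, etail_ecomb]
  have hzr : z 0 / h = τ := by
    rw [hz0]
    field_simp
  have h1τ : (1 - τ) ≠ 0 := (sub_pos.mpr hτ1).ne'
  let g : EuclideanSpace ℝ (Fin (n + 1)) → EuclideanSpace ℝ (Fin n) :=
    fun x => (1 - x 0 / h)⁻¹ • (etail x - (x 0 / h) • c)
  have hgz : g z = ζ := by
    show (1 - z 0 / h)⁻¹ • (etail z - (z 0 / h) • c) = ζ
    rw [hzr, hzt, add_sub_cancel_right, smul_smul, inv_mul_cancel₀ h1τ, one_smul]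
  have hgc : ContinuousAt g z := by
    have h1 : ContinuousAt (fun x : EuclideanSpace ℝ (Fin (n + 1)) => 1 - x 0 / h) z :=
      continuousAt_const.sub (hc0.continuousAt.div_const h)
    have h2 : ContinuousAt
        (fun x : EuclideanSpace ℝ (Fin (n + 1)) => etail x - (x 0 / h) • c) z :=
      continuous_etail.continuousAt.sub ((hc0.continuousAt.div_const h).smul continuousAt_const)
    have hne : 1 - z 0 / h ≠ 0 := by
      rw [hzr]
      exact h1τ
    exact (h1.inv₀ hne).smul h2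
  rw [mem_interior_iff_mem_nhds]
  have hU1 : {x : EuclideanSpace ℝ (Fin (n + 1)) | 0 < x 0} ∈ nhds z := by
    refine (isOpen_lt continuous_const hc0).mem_nhds ?_
    show 0 < z 0
    rw [hz0]
    exact mul_pos hτ0 hh
  have hU2 : {x : EuclideanSpace ℝ (Fin (n + 1)) | x 0 < h} ∈ nhds z := by
    refine (isOpen_lt hc0 continuous_const).mem_nhds ?_
    show z 0 < h
    rw [hz0]
    have h3 := mul_lt_mul_of_pos_right hτ1 hh
    linarith
  have hU3 : g ⁻¹' interior D ∈ nhds z := by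
    refine hgc.preimage_mem_nhds (isOpen_interior.mem_nhds ?_)
    rw [hgz]
    exact hζ
  refine Filter.mem_of_superset (Filter.inter_mem (Filter.inter_mem hU1 hU2) hU3) ?_
  rintro x ⟨⟨hx0, hx1⟩, hx2⟩
  have hx0' : 0 < x 0 := hx0
  have hx1' : x 0 < h := hx1
  have hr0 : 0 < x 0 / h := div_pos hx0' hh
  have hr1 : x 0 / h < 1 := (div_lt_one hh).mpr hx1'
  have hne : 1 - x 0 / h ≠ 0 := (sub_pos.mpr hr1).ne'
  refine ⟨g x, interior_subset hx2, x 0 / h, hr0.le, hr1.le, ?_⟩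
  have e1 : x 0 / h * h = x 0 := div_mul_cancel₀ _ hh0
  have e2 : (1 - x 0 / h) • g x + (x 0 / h) • c = etail x := by
    show (1 - x 0 / h) • ((1 - x 0 / h)⁻¹ • (etail x - (x 0 / h) • c)) + (x 0 / h) • c = etail x
    rw [smul_smul, mul_inv_cancel₀ hne, one_smul, sub_add_cancel]
  rw [e1, e2, ecomb_eta]

end Vale.Agent.Lib.P248.H69
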