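import Mathlib
import Vale.Agent.Lib.P248.helper37.Q2Defs
import Vale.Agent.Lib.P248.helper37.Final

/-!
# P248 pool (helper69): the tree of an admissible pair satisfies the node inequalities

`tree_ok_of` proves `(tree m A z).Ok` for every admissible pair from the cone inequality for
compact convex sets, the description of the sections of the positive part of the polar, the
basic facts on volumes and the separation statement, all taken as explicit hypotheses.
-/

open MeasureTheory Set

namespace Vale.Agent.Lib.P248.H69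

open Vale.Agent.Lib.P248.H37 Vale.Agent.Lib.P248.H37Q

/-- The algebra at one node of the tree. -/
theorem h69_local_alg (n : ℕ) (z Vi ali : Fin (n + 1) → ℝ) (V al : ℝ)
    (hz : ∀ i, 0 < z i) (hV : 0 < V)
    (hsum : ∑ i, (z i + Vi i / (((n : ℝ) + 1) * V)) * ali i ≤ ((n : ℝ) + 1) * al) :
    ∑ i, (1 + ((n.factorial : ℝ) * Vi i * ∏ j, z (i.succAbove j)) /
        (((n + 1).factorial : ℝ) * V * ∏ j, z j)) *
        ((n.factorial : ℝ) * ali i / ∏ j, z (i.succAbove j)) ≤
      ((n + 1).factorial : ℝ) * al / ∏ j, z j := by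
  have hP : 0 < ∏ j, z j := Finset.prod_pos (fun j _ => hz j)
  have hPi : ∀ i : Fin (n + 1), 0 < ∏ j, z (i.succAbove j) :=
    fun i => Finset.prod_pos (fun j _ => hz _)
  have hsplit : ∀ i : Fin (n + 1), ∏ j, z j = z i * ∏ j, z (i.succAbove j) :=
    fun i => Fin.prod_univ_succAbove z i
  have hfac : ((n + 1).factorial : ℝ) = ((n : ℝ) + 1) * (n.factorial : ℝ) := by
    rw [Nat.factorial_succ]
    push_cast
    ring
  have hnf : 0 < (n.factorial : ℝ) := by exact_mod_cast Nat.factorial_pos n
  have hn1 : 0 < (n : ℝ) + 1 := by positivity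
  have hterm : ∀ i : Fin (n + 1),
      (1 + ((n.factorial : ℝ) * Vi i * ∏ j, z (i.succAbove j)) /
        (((n + 1).factorial : ℝ) * V * ∏ j, z j)) *
        ((n.factorial : ℝ) * ali i / ∏ j, z (i.succAbove j)) =
      ((n.factorial : ℝ) / ∏ j, z j) * ((z i + Vi i / (((n : ℝ) + 1) * V)) * ali i) := by
    intro i
    have h1 := hPi i
    have h2 := hz i
    rw [hfac, hsplit i]
    field_simp
  rw [Finset.sum_congr rfl (fun i _ => hterm i), ← Finset.mul_sum]
  calc ((n.factorial : ℝ) / ∏ j, z j) * ∑ i, (z i + Vi i / (((n : ℝ) + 1) * V)) * ali i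
      ≤ ((n.factorial : ℝ) / ∏ j, z j) * (((n : ℝ) + 1) * al) :=
        mul_le_mul_of_nonneg_left hsum (div_pos hnf hP).le
    _ = ((n + 1).factorial : ℝ) * al / ∏ j, z j := by
        rw [hfac]
        field_simp

/-- The tree of an admissible pair satisfies the node inequalities, given the leaf statements
of the pool as hypotheses. -/
theorem tree_ok_of
    (cone_ineq_convex : ∀ (n : ℕ) (M : Set (Fin (n + 1) → ℝ)), IsCompact M → Convex ℝ M →
      (∀ p ∈ M, ∀ i, 0 ≤ p i) → ∀ y : Fin (n + 1) → ℝ, y ∈ M →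
      ∑ i, ENNReal.ofReal (y i) * volume (sec M i) ≤ ((n : ENNReal) + 1) * volume M)
    (sec_posZ : ∀ (n : ℕ) (A : Set (Fin (n + 1) → ℝ)), Good A → ∀ (z : Fin (n + 1) → ℝ)
      (i : Fin (n + 1)), sec (posZ A z) i = posZ (sec A i) (fun k => z (i.succAbove k)))
    (adm_sec : ∀ (n : ℕ) (A : Set (Fin (n + 1) → ℝ)) (z : Fin (n + 1) → ℝ), Adm A z →
      ∀ i : Fin (n + 1), Adm (sec A i) (fun k => z (i.succAbove k)))
    (isCompact_posZ : ∀ (m : ℕ) (A : Set (Fin m → ℝ)) (z : Fin m → ℝ), Adm A z →
      IsCompact (posZ A z))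
    (convex_posZ : ∀ (m : ℕ) (A : Set (Fin m → ℝ)) (z : Fin m → ℝ), Convex ℝ (posZ A z))
    (vT_pos : ∀ (m : ℕ) (A : Set (Fin m → ℝ)) (z : Fin m → ℝ), Adm A z → 0 < vT A z)
    (volume_posZ_ne_top : ∀ (m : ℕ) (A : Set (Fin m → ℝ)) (z : Fin m → ℝ), Adm A z →
      volume (posZ A z) ≠ ⊤)
    (vA_pos : ∀ (m : ℕ) (A : Set (Fin m → ℝ)), Good A → 0 < vA A)
    (vT_dim_zero : ∀ (A : Set (Fin 0 → ℝ)) (z : Fin 0 → ℝ), vT A z = 1)
    (vA_dim_zero : ∀ (A : Set (Fin 0 → ℝ)), Good A → vA A = 1)
    (star_mem : ∀ (m : ℕ) (A : Set (Fin m → ℝ)) (z : Fin m → ℝ), Adm A z →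
      ∀ ξ : Fin m → ℝ, (∀ i, 0 ≤ ξ i) → (∀ y ∈ posZ A z, ∑ i, y i * ξ i ≤ 1) →
      (fun i => z i + ξ i) ∈ A) :
    ∀ (m : ℕ) (A : Set (Fin m → ℝ)) (z : Fin m → ℝ), Adm A z → (tree m A z).Ok := by
  have hu : ∀ (m : ℕ) (A : Set (Fin m → ℝ)) (z : Fin m → ℝ),
      (tree m A z).u = (m.factorial : ℝ) * vT A z * ∏ i, z i := by
    intro m A z
    cases m with
    | zero => simp [tree, LT.u, vT_dim_zero A z]
    | succ n => simp only [tree, LT.u]
  have hb : ∀ (m : ℕ) (A : Set (Fin m → ℝ)) (z : Fin m → ℝ), Good A →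
      (tree m A z).b = (m.factorial : ℝ) * vA A / ∏ i, z i := by
    intro m A z hA
    cases m with
    | zero => simp [tree, LT.b, vA_dim_zero A hA]
    | succ n => simp only [tree, LT.b]
  intro m
  induction m with
  | zero =>
    intro A z _
    simp only [tree, LT.Ok]
  | succ n ih =>
    intro A z h
    have hA := h.good
    have hz := h.pos
    have hV : 0 < vT A z := vT_pos _ _ _ h
    have hal : 0 < vA A := vA_pos _ _ hA
    have hP : 0 < ∏ i, z i := Finset.prod_pos (fun i _ => hz i)
    have hfac : 0 < ((n + 1).factorial : ℝ) := by exact_mod_cast Nat.factorial_pos (n + 1)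
    have hn1 : 0 < (n : ℝ) + 1 := by positivity
    -- the point `ξ` built from the volumes of the sections of the positive part of the polar
    have hξ0 : ∀ i : Fin (n + 1),
        0 ≤ vT (sec A i) (fun k => z (i.succAbove k)) / (((n : ℝ) + 1) * vT A z) :=
      fun i => div_nonneg ENNReal.toReal_nonneg (mul_pos hn1 hV).le
    have hT : ∀ y ∈ posZ A z,
        ∑ i, y i * (vT (sec A i) (fun k => z (i.succAbove k)) / (((n : ℝ) + 1) * vT A z))
          ≤ 1 := by
      intro y hy
      have hc := cone_ineq_convex n (posZ A z) (isCompact_posZ _ _ _ h) (convex_posZ _ A z)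
        (fun p hp i => hp.1 i) y hy
      have e1 : ∀ i : Fin (n + 1),
          ENNReal.ofReal (vT (sec A i) (fun k => z (i.succAbove k)))
            = volume (sec (posZ A z) i) := by
        intro i
        rw [sec_posZ n A hA z i]
        exact ENNReal.ofReal_toReal (volume_posZ_ne_top _ _ _ (adm_sec n A z h i))
      have e2 : ENNReal.ofReal (vT A z) = volume (posZ A z) :=
        ENNReal.ofReal_toReal (volume_posZ_ne_top _ _ _ h)
      have hc' : ∑ i, ENNReal.ofReal (y i) *
            ENNReal.ofReal (vT (sec A i) (fun k => z (i.succAbove k)))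
          ≤ ((n : ENNReal) + 1) * ENNReal.ofReal (vT A z) := by
        rw [e2, Finset.sum_congr rfl (fun i _ => by rw [e1 i])]
        exact hc
      have hr := cone_to_real n (fun i => hy.1 i) (fun i => ENNReal.toReal_nonneg) hV.le hc'
      have hsum : ∑ i, y i *
            (vT (sec A i) (fun k => z (i.succAbove k)) / (((n : ℝ) + 1) * vT A z))
          = (∑ i, y i * vT (sec A i) (fun k => z (i.succAbove k)))
              / (((n : ℝ) + 1) * vT A z) := by
        rw [Finset.sum_div]
        refine Finset.sum_congr rfl (fun i _ => ?_)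
        ring
      rw [hsum, div_le_one (mul_pos hn1 hV)]
      exact hr
    -- the point `z + ξ` lies in `A`
    have hp := star_mem _ A z h
      (fun i => vT (sec A i) (fun k => z (i.succAbove k)) / (((n : ℝ) + 1) * vT A z)) hξ0 hT
    -- the cone inequality for `A` at `z + ξ`
    have hc := cone_all n A hA.closed hA.convex hA.nonneg hA.down _ hp
    have e1 : ∀ i : Fin (n + 1), ENNReal.ofReal (vA (sec A i))
        = volume {w : Fin n → ℝ | (Fin.insertNth i (0 : ℝ) w : Fin (n + 1) → ℝ) ∈ A} := by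
      intro i
      exact ENNReal.ofReal_toReal (good_vol_lt_top (good_sec hA i)).ne
    have e2 : ENNReal.ofReal (vA A) = volume A :=
      ENNReal.ofReal_toReal (good_vol_lt_top hA).ne
    have hc' : ∑ i, ENNReal.ofReal
          (z i + vT (sec A i) (fun k => z (i.succAbove k)) / (((n : ℝ) + 1) * vT A z)) *
          ENNReal.ofReal (vA (sec A i))
        ≤ ((n : ENNReal) + 1) * ENNReal.ofReal (vA A) := by
      rw [e2, Finset.sum_congr rfl (fun i _ => by rw [e1 i])]
      exact hc
    have hr := cone_to_real n (fun i => add_nonneg (hz i).le (hξ0 i))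
      (fun i => ENNReal.toReal_nonneg) hal.le hc'
    simp only [tree, LT.Ok]
    refine ⟨mul_pos (mul_pos hfac hV) hP, div_pos (mul_pos hfac hal) hP,
      fun i => ih _ _ (adm_sec n A z h i), ?_⟩
    have hu' : ∀ i : Fin (n + 1), (tree n (sec A i) (fun k => z (i.succAbove k))).u
        = (n.factorial : ℝ) * vT (sec A i) (fun k => z (i.succAbove k))
          * ∏ j, z (i.succAbove j) := fun i => hu n _ _
    have hb' : ∀ i : Fin (n + 1), (tree n (sec A i) (fun k => z (i.succAbove k))).b
        = (n.factorial : ℝ) * vA (sec A i) / ∏ j, z (i.succAbove j) :=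
      fun i => hb n _ _ (good_sec hA i)
    simp only [hu', hb']
    exact h69_local_alg n z (fun i => vT (sec A i) (fun k => z (i.succAbove k)))
      (fun i => vA (sec A i)) (vT A z) (vA A) hz hV hr

end Vale.Agent.Lib.P248.H69
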