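import Mathlib
import Vale.Agent.Lib.P248.helper37.Q2Defs
import Vale.Agent.Lib.P248.helper37.Final
import Vale.Agent.Lib.P248.helper16.SecPos
import Vale.Agent.Lib.P248.helper77.PosBasic
import Vale.Agent.Lib.P248.helper77.StarMem
import Vale.Agent.Lib.P248.helper69.TreeOkOf

/-!
# P248 pool (helper69): the tree of an admissible pair satisfies the node inequalities

`tree_ok_of_cone` proves `(tree m A z).Ok` for every admissible pair from the cone inequality
for compact convex sets alone (the other leaf statements are taken from the pool files).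
-/

open MeasureTheory Set

namespace Vale.Agent.Lib.P248.H69

open Vale.Agent.Lib.P248.H37 Vale.Agent.Lib.P248.H37Q

/-- The tree of an admissible pair satisfies the node inequalities, given the cone inequality
for compact convex sets in the positive orthant. -/
theorem tree_ok_of_cone
    (cone_ineq_convex : ∀ (n : ℕ) (M : Set (Fin (n + 1) → ℝ)), IsCompact M → Convex ℝ M →
      (∀ p ∈ M, ∀ i, 0 ≤ p i) → ∀ y : Fin (n + 1) → ℝ, y ∈ M →
      ∑ i, ENNReal.ofReal (y i) * volume (sec M i) ≤ ((n : ENNReal) + 1) * volume M) :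
    ∀ (m : ℕ) (A : Set (Fin m → ℝ)) (z : Fin m → ℝ), Adm A z → (tree m A z).Ok :=
  tree_ok_of cone_ineq_convex
    (fun _ _ hA z i => Vale.Agent.Lib.P248.H16.sec_posZ hA z i)
    (fun _ _ _ h i => Vale.Agent.Lib.P248.H16.adm_sec h i)
    (fun _ _ _ h => Vale.Agent.Lib.P248.H77.isCompact_posZ h)
    (fun _ A z => Vale.Agent.Lib.P248.H77.convex_posZ A z)
    (fun _ _ _ h => Vale.Agent.Lib.P248.H77.vT_pos h)
    (fun _ _ _ h => Vale.Agent.Lib.P248.H77.volume_posZ_ne_top h)
    (fun _ _ hA => Vale.Agent.Lib.P248.H77.vA_pos hA)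
    (fun A z => Vale.Agent.Lib.P248.H77.vT_dim_zero A z)
    (fun _ hA => Vale.Agent.Lib.P248.H77.vA_dim_zero hA)
    (fun _ _ _ h ξ hξ hT => Vale.Agent.Lib.P248.H77.star_mem h ξ hξ hT)

end Vale.Agent.Lib.P248.H69
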